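import Vale.Agent.P246.Q20.Gol
import Vale.Agent.P246.Cyc.Ab
import Vale.Agent.P246.Cyc.Cover

/-!
# Arithmetic of `ℤ[ζ_5]` and of the quaternion order `ℤ[ζ_5, j]`
-/

set_option linter.all false

namespace Vale.Agent.P246.Q20

open Vale.Agent.P246.Q24 Vale.Agent.P246.Cyc

theorem e1_eta : e1 eta = th := by rw [e1_apply]; simp
theorem e2_eta : e2 eta = -1 - th := by rw [e2_apply]; simp

theorem eta_bds5 : e1 eta ^ 2 < 4 ∧ e2 eta ^ 2 < 4 := by
  have h1 := s5_lo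
  have h2 := s5_hi
  rw [e1_eta, e2_eta, th]
  constructor
  · nlinarith
  · nlinarith

theorem TN_ab5 (z : S5) : TN (Zt.ab z) := by
  obtain ⟨h1, h2⟩ := eta_bds5
  refine ⟨?_, ?_⟩
  · rw [Zt.ab, map_add, map_add, map_mul, map_mul, map_mul, map_mul]
    exact pos_form h1
  · rw [Zt.ab, map_add, map_add, map_mul, map_mul, map_mul, map_mul]
    exact pos_form h2

theorem ab_eq_zero5 {z : S5} (h : Zt.ab z = 0) : z = 0 := by
  obtain ⟨h1, h2⟩ := eta_bds5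
  have h4 := congrArg e1 h
  rw [Zt.ab, map_add, map_add, map_mul, map_mul, map_mul, map_mul, map_zero] at h4
  obtain ⟨h5, h6⟩ := pos_form_zero h1 h4
  ext : 1
  · exact e1_inj h5
  · exact e1_inj h6

/-- the absolute norm -/
def nn (z : S5) : ℤ := Gol.nm (Zt.ab z)

theorem nn_mul (x y : S5) : nn (x * y) = nn x * nn y := by
  rw [nn, Zt.ab_mul, Gol.nm_mul, nn, nn]

theorem nn_nonneg (z : S5) : 0 ≤ nn z := (TN_ab5 z).nm_nonneg

theorem nn_eq_zero {z : S5} : nn z = 0 ↔ z = 0 := by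
  rw [nn, nm_eq_zero]
  constructor
  · exact ab_eq_zero5
  · rintro rfl
    exact Zt.ab_zero

theorem nn_pos {z : S5} (h : z ≠ 0) : 0 < nn z :=
  lt_of_le_of_ne (nn_nonneg z) (fun h0 => h (nn_eq_zero.1 h0.symm))

theorem nn_conj (z : S5) : nn (conj z) = nn z := by
  rw [nn, Zt.ab_conj, nn]

theorem nn_C (a : K5) : nn (Zt.C a) = Gol.nm a * Gol.nm a := by
  rw [nn, Zt.ab_C, Gol.nm_mul]

theorem conj_fixed5 {x : S5} (h : conj x = x) : x = Zt.C x.re := by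
  have h1 := congrArg Zt.im h
  rw [Zt.conj_im] at h1
  have h2 := congrArg Gol.x0 h1
  have h3 := congrArg Gol.x1 h1
  simp only [Gol.neg_x0, Gol.neg_x1] at h2 h3
  ext : 1
  · rfl
  · rw [Zt.C_im]
    ext
    · rw [Gol.zero_x0]; omega
    · rw [Gol.zero_x1]; omega

/-- the cofactor -/
def cof (w : S5) : S5 := conj w * Zt.C (Gol.sig (Zt.ab w))

theorem mul_cof (w : S5) : w * cof w = Zt.C (Gol.C (nn w)) := by
  rw [cof, ← mul_assoc, Zt.mul_conj, ← map_mul, Gol.nm_spec, nn]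

theorem ab_cof (w : S5) : Zt.ab (cof w) = Gol.C (nn w) * Gol.sig (Zt.ab w) := by
  rw [cof, Zt.ab_mul, Zt.ab_conj, Zt.ab_C, nn, ← Gol.nm_spec]
  ring

theorem nn_cof (w : S5) : nn (cof w) = nn w ^ 3 := by
  rw [nn, ab_cof, Gol.nm_mul, Gol.nm_sig, Gol.nm_C]
  change nn w * nn w * nn w = _
  ring

theorem nrd_eq5 (x : Dbl S5 true) : Dbl.nrd x = Zt.C (Zt.ab x.fst + Zt.ab x.snd) := by
  rw [map_add, ← Zt.mul_conj, ← Zt.mul_conj]
  simp [Dbl.nrd]

theorem nrd_zero5 (x : Dbl S5 true) (h : Dbl.nrd x = 0) : x = 0 := by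
  rw [nrd_eq5, ← map_zero (Zt.C (K := K5))] at h
  have h1 := Zt.C_inj h
  have h2 := TN_ab5 x.fst
  have h3 := TN_ab5 x.snd
  have h4 := congrArg e1 h1
  rw [map_add, map_zero] at h4
  have h5 : e1 (Zt.ab x.fst) = 0 := by linarith [h2.1, h3.1]
  have h6 : e1 (Zt.ab x.snd) = 0 := by linarith [h2.1, h3.1]
  ext : 1
  · exact ab_eq_zero5 (e1_inj h5)
  · exact ab_eq_zero5 (e1_inj h6)

theorem TN.div {x y : K5} (hx : TN x) (hx0 : x ≠ 0) (hxy : TN (x * y)) : TN y := by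
  have h1 : e1 x * e2 x ≠ 0 := by
    rw [e_nm]
    have : Gol.nm x ≠ 0 := fun h => hx0 (nm_eq_zero.1 h)
    exact_mod_cast this
  obtain ⟨a, b⟩ := hx
  obtain ⟨a', b'⟩ := hxy
  rw [map_mul] at a' b'
  have a0 : e1 x ≠ 0 := fun h => h1 (by rw [h]; ring)
  have b0 : e2 x ≠ 0 := fun h => h1 (by rw [h]; ring)
  exact ⟨nonneg_of_mul_nonneg_right a' (lt_of_le_of_ne a (Ne.symm a0)),
    nonneg_of_mul_nonneg_right b' (lt_of_le_of_ne b (Ne.symm b0))⟩

/-- determinants are totally non-negative -/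
theorem Dt_TN5 (g : Matrix (Fin 2) (Fin 2) (Dbl S5 true)) : ∃ v : K5, Dt g = Zt.C v ∧ TN v := by
  refine ⟨_, conj_fixed5 (conj_Dt g), ?_⟩
  have hN : ∀ x : Dbl S5 true, TN (Zt.ab x.fst + Zt.ab x.snd) :=
    fun x => (TN_ab5 _).add (TN_ab5 _)
  by_cases h : g 0 0 = 0
  · rw [Dt_swap g h, nrd_eq5, nrd_eq5, ← map_mul]
    exact (hN _).mul (hN _)
  · have h0 := Dt_schur g
    rw [conj_fixed5 (conj_Dt g), nrd_eq5, nrd_eq5, ← map_mul, ← map_mul, ← map_mul] at h0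
    have h1 := Zt.C_inj h0
    have h2 : Zt.ab (g 0 0).fst + Zt.ab (g 0 0).snd ≠ 0 := by
      intro h2
      apply h
      apply nrd_zero5
      rw [nrd_eq5, h2, map_zero]
    have h3 : (Zt.ab (g 0 0).fst + Zt.ab (g 0 0).snd) *
        (Zt.ab (g 0 0).fst + Zt.ab (g 0 0).snd) ≠ 0 := by
      intro h3
      apply h2
      apply nm_eq_zero.1
      have h4 := nm_eq_zero.2 h3
      rw [Gol.nm_mul] at h4
      exact mul_self_eq_zero.1 h4
    apply TN.div ((hN (g 0 0)).mul (hN (g 0 0))) h3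
    rw [h1]
    exact (hN _).mul (hN _)

/-! ### division with small remainder -/

/-- `∑ x_i ζ^i` -/
def cyc (x : Fin 5 → ℤ) : S5 :=
  ⟨⟨x 0 - x 2, -x 3 + x 4⟩, ⟨x 1 - x 4, x 2 - x 3⟩⟩

/-- the coordinates -/
def coo (z : S5) : Fin 5 → ℤ := ![z.re.x0 + z.im.x1 - z.re.x1, z.im.x0, z.im.x1 - z.re.x1,
  -z.re.x1, 0]

theorem cyc_coo (z : S5) : cyc (coo z) = z := by
  ext
  · change coo z 0 - coo z 2 = _
    simp [coo]
  · change -coo z 3 + coo z 4 = _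
    simp [coo]
  · change coo z 1 - coo z 4 = _
    simp [coo]
  · change coo z 2 - coo z 3 = _
    simp [coo]

theorem tr_cyc (x : Fin 5 → ℤ) : 2 * Gol.tr (Zt.ab (cyc x)) =
    5 * ∑ i, x i ^ 2 - (∑ i, x i) ^ 2 := by
  simp only [Fin.sum_univ_succ, Gol.tr, Zt.ab, cyc]
  simp
  ring

theorem cyc_sub (x y : Fin 5 → ℤ) : cyc (fun i => x i - y i) = cyc x - cyc y := by
  ext <;> simp [cyc] <;> ring

theorem cyc_mul (x : Fin 5 → ℤ) (m : ℤ) : cyc (fun i => m * x i) = Zt.C (Gol.C m) * cyc x := by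
  ext <;> simp [cyc] <;> ring

/-- division with small remainder, in terms of the trace -/
theorem div5 (z : S5) (n : ℕ) (hn : 0 < n) : ∃ q : S5,
    24 * Gol.tr (Zt.ab (z - Zt.C (Gol.C (n : ℤ)) * q)) ≤ 25 * ((n : ℤ) ^ 2 - 1) := by
  obtain ⟨y, h1, h2⟩ := lenstra (coo z) n hn
  choose q hq using h1
  refine ⟨cyc q, ?_⟩
  have h3 : z - Zt.C (Gol.C (n : ℤ)) * cyc q = cyc y := by
    rw [← cyc_mul]
    conv_lhs => rw [← cyc_coo z]
    rw [← cyc_sub]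
    congr 1
    funext i
    have := hq i
    linarith
  rw [h3]
  have h4 := tr_cyc y
  simp only [Fintype.card_fin] at h2
  have h5 : ((5 : ℕ) : ℤ) = 5 := rfl
  rw [h5] at h2
  linarith

/-- norm comparison from a trace bound -/
theorem nm_lt_of_tr {v : K5} (hv : TN v) {m : ℤ} (hm : 0 ≤ m) (h : Gol.tr v < 2 * m) :
    Gol.nm v < m ^ 2 := by
  have h1 := amgm v
  have h2 := hv.tr_nonneg
  have h3 : Gol.tr v ^ 2 < (2 * m) ^ 2 := pow_lt_pow_left₀ h h2 (by norm_num)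
  nlinarith

theorem euclid5 (α w : S5) (hw : w ≠ 0) : ∃ q, nn (α - q * w) < nn w := by
  have hm := nn_pos hw
  obtain ⟨n, hn⟩ : ∃ n : ℕ, (n : ℤ) = nn w := ⟨(nn w).toNat, Int.toNat_of_nonneg hm.le⟩
  have hn0 : 0 < n := by
    have : (0 : ℤ) < n := by rw [hn]; exact hm
    exact_mod_cast this
  obtain ⟨q, hq⟩ := div5 (α * cof w) n hn0
  rw [hn] at hq
  refine ⟨q, ?_⟩
  have h1 : α * cof w - Zt.C (Gol.C (nn w)) * q = (α - q * w) * cof w := by
    rw [← mul_cof]; ring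
  rw [h1] at hq
  have h2 : Gol.nm (Zt.ab ((α - q * w) * cof w)) < (nn w ^ 2) ^ 2 := by
    apply nm_lt_of_tr (TN_ab5 _) (by positivity)
    nlinarith
  change nn ((α - q * w) * cof w) < _ at h2
  rw [nn_mul, nn_cof] at h2
  have h3 : (nn w ^ 2) ^ 2 = nn w * nn w ^ 3 := by ring
  rw [h3] at h2
  exact lt_of_mul_lt_mul_right h2 (by positivity)

/-- reduction of the trace by squares of units -/
theorem reduce5 : ∀ (k : ℕ) (v : K5), TN v → (Gol.tr v).toNat ≤ k →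
    ∃ ε : K5, Gol.nm ε * Gol.nm ε = 1 ∧ Gol.tr (ε * ε * v) ^ 2 ≤ 5 * Gol.nm v := by
  intro k
  induction k with
  | zero =>
    intro v hv hk
    refine ⟨1, by rw [Gol.nm_one]; norm_num, ?_⟩
    have h1 := hv.tr_nonneg
    have h2 : Gol.tr v = 0 := by omega
    rw [mul_one, one_mul, h2]
    have := hv.nm_nonneg
    norm_num
    linarith
  | succ k ih =>
    intro v hv hk
    have step : ∀ u : K5, Gol.nm u * Gol.nm u = 1 → Gol.tr (u * u * v) < Gol.tr v →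
        ∃ ε : K5, Gol.nm ε * Gol.nm ε = 1 ∧ Gol.tr (ε * ε * v) ^ 2 ≤ 5 * Gol.nm v := by
      intro u hu hlt
      have hw : TN (u * u * v) := (TN_sq u).mul hv
      have h0 := hw.tr_nonneg
      obtain ⟨ε, h1, h2⟩ := ih (u * u * v) hw (by omega)
      refine ⟨ε * u, ?_, ?_⟩
      · rw [Gol.nm_mul]
        have : Gol.nm ε * Gol.nm u * (Gol.nm ε * Gol.nm u) =
          (Gol.nm ε * Gol.nm ε) * (Gol.nm u * Gol.nm u) := by ring
        rw [this, h1, hu, one_mul]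
      · rw [Gol.nm_mul, Gol.nm_mul, hu, one_mul] at h2
        have : ε * u * (ε * u) * v = ε * ε * (u * u * v) := by ring
        rw [this]
        exact h2
    by_cases c1 : Gol.tr ((⟨0, 1⟩ : K5) * ⟨0, 1⟩ * v) < Gol.tr v
    · exact step ⟨0, 1⟩ (by decide) c1
    by_cases c2 : Gol.tr ((⟨1, 1⟩ : K5) * ⟨1, 1⟩ * v) < Gol.tr v
    · exact step ⟨1, 1⟩ (by decide) c2
    refine ⟨1, by rw [Gol.nm_one]; norm_num, ?_⟩
    rw [mul_one, one_mul]
    rw [not_lt] at c1 c2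
    simp [Gol.tr] at c1 c2
    simp only [Gol.tr, Gol.nm]
    have d1 : 0 ≤ v.x0 - 3 * v.x1 := by linarith
    have d2 : 0 ≤ v.x0 + 2 * v.x1 := by linarith
    nlinarith [mul_nonneg d1 d2]

theorem sum_form5 (x η : S5) : x * conj x + η * conj η = Zt.C (Zt.ab x + Zt.ab η) := by
  rw [Zt.mul_conj, Zt.mul_conj, map_add]

theorem nn_sum_lt5 {x η : S5} {m : ℤ} (h : Gol.nm (Zt.ab x + Zt.ab η) < m) :
    nn (x * conj x + η * conj η) < m * m := by
  rw [sum_form5, nn_C]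
  have h0 : 0 ≤ Gol.nm (Zt.ab x + Zt.ab η) := ((TN_ab5 x).add (TN_ab5 η)).nm_nonneg
  exact mul_self_lt_mul_self h0 h

theorem arith5 {m t T : ℤ} (hm : 6 ≤ m) (ht : t ^ 2 ≤ 5 * m)
    (hT : 24 * T ≤ 25 * (m ^ 2 - 1)) : T + m * t < 2 * m ^ 2 := by
  have h1 : 24 * t < 23 * m := by
    by_contra hcon
    have h2 : 23 * m ≤ 24 * t := not_lt.1 hcon
    have h3 : (23 * m) ^ 2 ≤ (24 * t) ^ 2 := pow_le_pow_left₀ (by positivity) h2 2
    nlinarith
  have h2 : m * (24 * t) < m * (23 * m) := mul_lt_mul_of_pos_left h1 (by linarith)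
  nlinarith

theorem large5 (w : S5) (hB : 6 ≤ nn w) : ∃ η : S5, η ≠ 0 ∧ ∀ α, ∃ q,
    nn ((α - q * w) * conj (α - q * w) + η * conj η) < nn w * nn w := by
  have hm : 0 < nn w := by linarith
  have hv : TN (Gol.sig (Zt.ab w)) := (TN_ab5 w).sig
  obtain ⟨ε, h1, h2⟩ := reduce5 _ _ hv le_rfl
  have h3 : Gol.nm (Gol.sig (Zt.ab w)) = nn w := by
    rw [Gol.nm_sig]
    rfl
  rw [h3] at h2
  refine ⟨Zt.C ε, ?_, ?_⟩
  · intro h0
    have h4 : ε = 0 := Zt.C_inj (h0.trans (map_zero _).symm)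
    rw [h4] at h1
    exact absurd h1 (by decide)
  · intro α
    obtain ⟨n, hn⟩ : ∃ n : ℕ, (n : ℤ) = nn w := ⟨(nn w).toNat, Int.toNat_of_nonneg hm.le⟩
    have hn0 : 0 < n := by
      have : (0 : ℤ) < n := by rw [hn]; exact hm
      exact_mod_cast this
    obtain ⟨q, hq⟩ := div5 (α * cof w) n hn0
    rw [hn] at hq
    refine ⟨q, nn_sum_lt5 ?_⟩
    have h5 : α * cof w - Zt.C (Gol.C (nn w)) * q = (α - q * w) * cof w := by
      rw [← mul_cof]; ring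
    rw [h5] at hq
    have h6 : (Zt.ab (α - q * w) + Zt.ab (Zt.C ε)) * Zt.ab (cof w) =
        Zt.ab ((α - q * w) * cof w) + Gol.C (nn w) * (ε * ε * Gol.sig (Zt.ab w)) := by
      rw [add_mul, ← Zt.ab_mul, Zt.ab_C, ab_cof]
      ring
    have h7 : Gol.tr ((Zt.ab (α - q * w) + Zt.ab (Zt.C ε)) * Zt.ab (cof w)) <
        2 * nn w ^ 2 := by
      rw [h6, Gol.tr_add, Gol.tr_C_mul]
      exact arith5 hB h2 hq
    have h8 := nm_lt_of_tr (((TN_ab5 (α - q * w)).add (TN_ab5 (Zt.C ε))).mul (TN_ab5 (cof w)))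
      (by positivity) h7
    rw [Gol.nm_mul] at h8
    change _ * nn (cof w) < _ at h8
    rw [nn_cof] at h8
    have h9 : (nn w ^ 2) ^ 2 = nn w * nn w ^ 3 := by ring
    rw [h9] at h8
    exact lt_of_mul_lt_mul_right h8 (by positivity)

theorem nm_ne_two (v : K5) : Gol.nm v ≠ 2 := by
  intro h
  simp only [Gol.nm] at h
  have h1 : (2 * v.x0 - v.x1) * (2 * v.x0 - v.x1) = 5 * (v.x1 * v.x1) + 8 := by linear_combination 4 * h
  have h2 : ((2 * v.x0 - v.x1) * (2 * v.x0 - v.x1)) % 5 = 3 := by omega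
  have h3 : (2 * v.x0 - v.x1) % 5 = 0 ∨ (2 * v.x0 - v.x1) % 5 = 1 ∨ (2 * v.x0 - v.x1) % 5 = 2 ∨
    (2 * v.x0 - v.x1) % 5 = 3 ∨ (2 * v.x0 - v.x1) % 5 = 4 := by omega
  rcases h3 with h3 | h3 | h3 | h3 | h3 <;> simp [Int.mul_emod, h3] at h2

theorem isUnit_C5 {v : K5} (h : Gol.nm v = 1) : IsUnit (Zt.C v : S5) := by
  refine IsUnit.of_mul_eq_one (Zt.C (Gol.sig v)) ?_
  rw [← map_mul, Gol.nm_spec, h, map_one, map_one]

theorem hQ5 (g : Matrix (Fin 2) (Fin 2) (Dbl S5 true)) (hN : nn (Dt g) < 6) (h0 : Dt g ≠ 0) :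
    IsUnit (Dt g) := by
  obtain ⟨v, h1, h2⟩ := Dt_TN5 g
  rw [h1] at hN h0 ⊢
  have h3 := nn_pos h0
  rw [nn_C] at hN h3
  have h4 := h2.nm_nonneg
  have h5 := nm_ne_two v
  have h6 : Gol.nm v < 3 := by nlinarith
  have h7 : Gol.nm v ≠ 0 := by
    intro h8
    rw [h8] at h3
    norm_num at h3
  exact isUnit_C5 (by omega)

instance : Nontrivial S5 := ⟨0, 1, by decide⟩

/-- the arithmetic data -/
def data5 : QuatData S5 where
  N x := (nn x).natAbs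
  mul x y := by rw [nn_mul, Int.natAbs_mul]
  zero x := by rw [Int.natAbs_eq_zero, nn_eq_zero]
  conj' x := by rw [nn_conj]
  euclid α n hn := by
    obtain ⟨q, hq⟩ := euclid5 α n hn
    refine ⟨q, ?_⟩
    have h1 := nn_nonneg (α - q * n)
    omega
  B := 6
  hP w hB hw := by
    obtain ⟨η, h1, h2⟩ := large5 w (by have := nn_nonneg w; omega)
    refine ⟨η, h1, fun α => ?_⟩
    obtain ⟨q, h3⟩ := h2 α
    refine ⟨q, ?_⟩
    rw [← Int.natAbs_mul]
    have h4 := nn_nonneg ((α - q * w) * conj (α - q * w) + η * conj η)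
    omega
  hQ g hN h0 := hQ5 g (by have := nn_nonneg (Dt g); omega) h0
  nz := nrd_zero5

/-- transitivity for `ℤ[ζ_5, j]` -/
theorem TR_S5t : TR (Dbl S5 true) := data5.TR

end Vale.Agent.P246.Q20
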