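import Vale.Agent.P246.Q20.Lift
import Vale.Agent.P246.Small.N2

/-!
# Coordinates of `ℤ[Q_20]`
-/

set_option linter.all false

namespace Vale.Agent.P246.Q20

open Vale.Agent.P246 Vale.Agent.P246.Q24 Vale.Agent.P246.Cyc Vale.Agent.P246.Gen
  Vale.Agent.P246.Small QuaternionGroup

/-- `ℤ[C_2]` -/
abbrev T1 : Type := Dbl ℤ false
/-- `ℤ[i]` -/
abbrev T2 : Type := Dbl ℤ true
/-- `ℤ[ζ_5] ∘ C_2` -/
abbrev T3 : Type := Dbl S5 false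
/-- `ℤ[ζ_5, j]` -/
abbrev T4 : Type := Dbl S5 true

/-- `ℤ → 𝔽_5` -/
def zF5 : ℤ →+* F5 := Int.castRingHom F5

theorem zF5_conj (x : ℤ) : zF5 (conj x) = conj (zF5 x) := rfl

theorem neg_one_L16 : (-1 : L16) = 1 := by decide

/-- `T1 → 𝔽_2[C_2]` -/
def a12 : T1 →+* Dbl F2 false := Dbl.map zF2 zF2_conj
/-- `T2 → 𝔽_2[C_2]` -/
def b12 : T2 →+* Dbl F2 false := Dbl.red2 neg_one_F2 zF2 zF2_conj
/-- `T4 → 𝔽_16 ∘ C_2` -/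
def b34 : T4 →+* Dbl L16 false := Dbl.red2 neg_one_L16 z16 z16_conj
/-- `T1 → 𝔽_5[C_2]` -/
def a13 : T1 →+* Dbl F5 false := Dbl.map zF5 zF5_conj
/-- `T2 → 𝔽_5[i]` -/
def a24 : T2 →+* Dbl F5 true := Dbl.map zF5 zF5_conj
/-- `T4 → 𝔽_5[i]` -/
def b24 : T4 →+* Dbl F5 true := Dbl.map z5 z5_conj

/-- the images of `x` -/
def x1 : T1 := ⟨1, 0⟩
/-- the images of `x` -/
def x2 : T2 := ⟨-1, 0⟩
/-- the images of `x` -/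
def x3 : T3 := ⟨⟨⟨0, 0⟩, ⟨1, 0⟩⟩, 0⟩
/-- the images of `x` -/
def x4 : T4 := ⟨⟨⟨0, 0⟩, ⟨-1, 0⟩⟩, 0⟩
/-- the images of `y` -/
def y1 : T1 := ⟨0, 1⟩
/-- the images of `y` -/
def y2 : T2 := ⟨0, 1⟩
/-- the images of `y` -/
def y3 : T3 := ⟨0, 1⟩
/-- the images of `y` -/
def y4 : T4 := ⟨0, 1⟩

/-- the projection -/
noncomputable def p1 : ZG (QuaternionGroup 5) →+* T1 :=
  prS 5 x1 y1 (by decide) (by decide) (by decide)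
/-- the projection -/
noncomputable def p2 : ZG (QuaternionGroup 5) →+* T2 :=
  prS 5 x2 y2 (by decide) (by decide) (by decide)
/-- the projection -/
noncomputable def p3 : ZG (QuaternionGroup 5) →+* T3 :=
  prS 5 x3 y3 (by decide +kernel) (by decide +kernel) (by decide +kernel)
/-- the projection -/
noncomputable def p4 : ZG (QuaternionGroup 5) →+* T4 :=
  prS 5 x4 y4 (by decide +kernel) (by decide +kernel) (by decide +kernel)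

theorem p1_X : p1 (Xn 5) = x1 := prS_X 5 _ _ _ _ _
theorem p1_Y : p1 (Yn 5) = y1 := prS_Y 5 _ _ _ _ _
theorem p2_X : p2 (Xn 5) = x2 := prS_X 5 _ _ _ _ _
theorem p2_Y : p2 (Yn 5) = y2 := prS_Y 5 _ _ _ _ _
theorem p3_X : p3 (Xn 5) = x3 := prS_X 5 _ _ _ _ _
theorem p3_Y : p3 (Yn 5) = y3 := prS_Y 5 _ _ _ _ _
theorem p4_X : p4 (Xn 5) = x4 := prS_X 5 _ _ _ _ _
theorem p4_Y : p4 (Yn 5) = y4 := prS_Y 5 _ _ _ _ _

theorem p_12 (z : ZG (QuaternionGroup 5)) : a12 (p1 z) = b12 (p2 z) := by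
  have h : a12.comp p1 = b12.comp p2 := by
    apply ZG_hom_ext 5
    · rw [RingHom.comp_apply, RingHom.comp_apply, p1_X, p2_X]; decide +kernel
    · rw [RingHom.comp_apply, RingHom.comp_apply, p1_Y, p2_Y]; decide +kernel
  exact DFunLike.congr_fun h z

theorem p_34 (z : ZG (QuaternionGroup 5)) : a34 (p3 z) = b34 (p4 z) := by
  have h : a34.comp p3 = b34.comp p4 := by
    apply ZG_hom_ext 5
    · rw [RingHom.comp_apply, RingHom.comp_apply, p3_X, p4_X]; decide +kernel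
    · rw [RingHom.comp_apply, RingHom.comp_apply, p3_Y, p4_Y]; decide +kernel
  exact DFunLike.congr_fun h z

theorem p_13 (z : ZG (QuaternionGroup 5)) : a13 (p1 z) = b13 (p3 z) := by
  have h : a13.comp p1 = b13.comp p3 := by
    apply ZG_hom_ext 5
    · rw [RingHom.comp_apply, RingHom.comp_apply, p1_X, p3_X]; decide +kernel
    · rw [RingHom.comp_apply, RingHom.comp_apply, p1_Y, p3_Y]; decide +kernel
  exact DFunLike.congr_fun h z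

theorem p_24 (z : ZG (QuaternionGroup 5)) : a24 (p2 z) = b24 (p4 z) := by
  have h : a24.comp p2 = b24.comp p4 := by
    apply ZG_hom_ext 5
    · rw [RingHom.comp_apply, RingHom.comp_apply, p2_X, p4_X]; decide +kernel
    · rw [RingHom.comp_apply, RingHom.comp_apply, p2_Y, p4_Y]; decide +kernel
  exact DFunLike.congr_fun h z

/-- elements in coordinates -/
noncomputable def cmb (u v : Fin 10 → ℤ) : ZG (QuaternionGroup 5) :=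
  (∑ i, u i • Xn 5 ^ (i : ℕ)) + (∑ i, v i • Xn 5 ^ (i : ℕ)) * Yn 5

theorem exists_cmb (z : ZG (QuaternionGroup 5)) : ∃ u v, z = cmb u v := exists_coord 5 z

theorem sum10 {M : Type} [AddCommMonoid M] (f : Fin 10 → M) :
    ∑ i, f i = f 0 + f 1 + f 2 + f 3 + f 4 + f 5 + f 6 + f 7 + f 8 + f 9 := by
  rw [Fin.sum_univ_castSucc, Fin.sum_univ_castSucc, Fin.sum_univ_eight]
  rfl

/-- `u_i + u_{i+5}` -/
def Au (u : Fin 10 → ℤ) : Fin 5 → ℤ := ![u 0 + u 5, u 1 + u 6, u 2 + u 7, u 3 + u 8, u 4 + u 9]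
/-- `(-1)^i (u_i - u_{i+5})` -/
def Bu (u : Fin 10 → ℤ) : Fin 5 → ℤ := ![u 0 - u 5, u 6 - u 1, u 2 - u 7, u 8 - u 3, u 4 - u 9]

theorem sm5 (A : Fin 5 → ℤ) : ∑ i, A i = A 0 + A 1 + A 2 + A 3 + A 4 := Fin.sum_univ_five A

theorem p1_cmb (u v : Fin 10 → ℤ) : p1 (cmb u v) = ⟨∑ i, Au u i, ∑ i, Au v i⟩ := by
  simp only [cmb, map_add, map_mul, map_sum, map_zsmul, map_pow, p1_X, p1_Y, sum10]
  have e : x1 = 1 := rfl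
  rw [e, sm5, sm5]
  simp only [one_pow]
  ext
  · simp [y1, Au]; ring
  · simp [y1, Au]; ring

theorem p2_cmb (u v : Fin 10 → ℤ) : p2 (cmb u v) = ⟨∑ i, Bu u i, ∑ i, Bu v i⟩ := by
  simp only [cmb, map_add, map_mul, map_sum, map_zsmul, map_pow, p2_X, p2_Y, sum10]
  have e0 : x2 ^ ((0 : Fin 10) : ℕ) = ⟨1, 0⟩ := by decide
  have e1 : x2 ^ ((1 : Fin 10) : ℕ) = ⟨-1, 0⟩ := by decide
  have e2 : x2 ^ ((2 : Fin 10) : ℕ) = ⟨1, 0⟩ := by decide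
  have e3 : x2 ^ ((3 : Fin 10) : ℕ) = ⟨-1, 0⟩ := by decide
  have e4 : x2 ^ ((4 : Fin 10) : ℕ) = ⟨1, 0⟩ := by decide
  have e5 : x2 ^ ((5 : Fin 10) : ℕ) = ⟨-1, 0⟩ := by decide
  have e6 : x2 ^ ((6 : Fin 10) : ℕ) = ⟨1, 0⟩ := by decide
  have e7 : x2 ^ ((7 : Fin 10) : ℕ) = ⟨-1, 0⟩ := by decide
  have e8 : x2 ^ ((8 : Fin 10) : ℕ) = ⟨1, 0⟩ := by decide
  have e9 : x2 ^ ((9 : Fin 10) : ℕ) = ⟨-1, 0⟩ := by decide
  rw [e0, e1, e2, e3, e4, e5, e6, e7, e8, e9, sm5, sm5]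
  ext
  · simp [y2, Bu]; ring
  · simp [y2, Bu]; ring

theorem p3_cmb (u v : Fin 10 → ℤ) : p3 (cmb u v) = ⟨cyc (Au u), cyc (Au v)⟩ := by
  simp only [cmb, map_add, map_mul, map_sum, map_zsmul, map_pow, p3_X, p3_Y, sum10]
  have e0 : x3 ^ ((0 : Fin 10) : ℕ) = ⟨⟨⟨1, 0⟩, ⟨0, 0⟩⟩, 0⟩ := by decide +kernel
  have e1 : x3 ^ ((1 : Fin 10) : ℕ) = ⟨⟨⟨0, 0⟩, ⟨1, 0⟩⟩, 0⟩ := by decide +kernel
  have e2 : x3 ^ ((2 : Fin 10) : ℕ) = ⟨⟨⟨-1, 0⟩, ⟨0, 1⟩⟩, 0⟩ := by decide +kernel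
  have e3 : x3 ^ ((3 : Fin 10) : ℕ) = ⟨⟨⟨0, -1⟩, ⟨0, -1⟩⟩, 0⟩ := by decide +kernel
  have e4 : x3 ^ ((4 : Fin 10) : ℕ) = ⟨⟨⟨0, 1⟩, ⟨-1, 0⟩⟩, 0⟩ := by decide +kernel
  have e5 : x3 ^ ((5 : Fin 10) : ℕ) = ⟨⟨⟨1, 0⟩, ⟨0, 0⟩⟩, 0⟩ := by decide +kernel
  have e6 : x3 ^ ((6 : Fin 10) : ℕ) = ⟨⟨⟨0, 0⟩, ⟨1, 0⟩⟩, 0⟩ := by decide +kernel
  have e7 : x3 ^ ((7 : Fin 10) : ℕ) = ⟨⟨⟨-1, 0⟩, ⟨0, 1⟩⟩, 0⟩ := by decide +kernel
  have e8 : x3 ^ ((8 : Fin 10) : ℕ) = ⟨⟨⟨0, -1⟩, ⟨0, -1⟩⟩, 0⟩ := by decide +kernel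
  have e9 : x3 ^ ((9 : Fin 10) : ℕ) = ⟨⟨⟨0, 1⟩, ⟨-1, 0⟩⟩, 0⟩ := by decide +kernel
  rw [e0, e1, e2, e3, e4, e5, e6, e7, e8, e9]
  ext <;> simp [y3, Au, cyc] <;> ring

theorem p4_cmb (u v : Fin 10 → ℤ) : p4 (cmb u v) = ⟨cyc (Bu u), cyc (Bu v)⟩ := by
  simp only [cmb, map_add, map_mul, map_sum, map_zsmul, map_pow, p4_X, p4_Y, sum10]
  have e0 : x4 ^ ((0 : Fin 10) : ℕ) = ⟨⟨⟨1, 0⟩, ⟨0, 0⟩⟩, 0⟩ := by decide +kernel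
  have e1 : x4 ^ ((1 : Fin 10) : ℕ) = ⟨⟨⟨0, 0⟩, ⟨-1, 0⟩⟩, 0⟩ := by decide +kernel
  have e2 : x4 ^ ((2 : Fin 10) : ℕ) = ⟨⟨⟨-1, 0⟩, ⟨0, 1⟩⟩, 0⟩ := by decide +kernel
  have e3 : x4 ^ ((3 : Fin 10) : ℕ) = ⟨⟨⟨0, 1⟩, ⟨0, 1⟩⟩, 0⟩ := by decide +kernel
  have e4 : x4 ^ ((4 : Fin 10) : ℕ) = ⟨⟨⟨0, 1⟩, ⟨-1, 0⟩⟩, 0⟩ := by decide +kernel
  have e5 : x4 ^ ((5 : Fin 10) : ℕ) = ⟨⟨⟨-1, 0⟩, ⟨0, 0⟩⟩, 0⟩ := by decide +kernel
  have e6 : x4 ^ ((6 : Fin 10) : ℕ) = ⟨⟨⟨0, 0⟩, ⟨1, 0⟩⟩, 0⟩ := by decide +kernel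
  have e7 : x4 ^ ((7 : Fin 10) : ℕ) = ⟨⟨⟨1, 0⟩, ⟨0, -1⟩⟩, 0⟩ := by decide +kernel
  have e8 : x4 ^ ((8 : Fin 10) : ℕ) = ⟨⟨⟨0, -1⟩, ⟨0, -1⟩⟩, 0⟩ := by decide +kernel
  have e9 : x4 ^ ((9 : Fin 10) : ℕ) = ⟨⟨⟨0, -1⟩, ⟨1, 0⟩⟩, 0⟩ := by decide +kernel
  rw [e0, e1, e2, e3, e4, e5, e6, e7, e8, e9]
  ext <;> simp [y4, Bu, cyc] <;> ring

/-- the coordinates vanish -/
theorem u_zero (u : Fin 10 → ℤ) (h1 : ∑ i, Au u i = 0) (h2 : ∑ i, Bu u i = 0)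
    (h3 : cyc (Au u) = 0) (h4 : cyc (Bu u) = 0) : u = 0 := by
  rw [sm5] at h1 h2
  have a1 := congrArg (fun z : S5 => z.re.x0) h3
  have a2 := congrArg (fun z : S5 => z.re.x1) h3
  have a3 := congrArg (fun z : S5 => z.im.x0) h3
  have a4 := congrArg (fun z : S5 => z.im.x1) h3
  have b1 := congrArg (fun z : S5 => z.re.x0) h4
  have b2 := congrArg (fun z : S5 => z.re.x1) h4
  have b3 := congrArg (fun z : S5 => z.im.x0) h4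
  have b4 := congrArg (fun z : S5 => z.im.x1) h4
  simp [cyc, Au] at h1 a1 a2 a3 a4
  simp [cyc, Bu] at h2 b1 b2 b3 b4
  funext i
  fin_cases i <;> simp <;> omega

theorem zF5_dvd {x y : ℤ} (h : zF5 x = zF5 y) : ∃ k, x = y + 5 * k := by
  have h1 : ((x : ℤ) : ZMod 5) = ((y : ℤ) : ZMod 5) := h
  obtain ⟨k, hk⟩ := (ZMod.intCast_eq_intCast_iff_dvd_sub y x 5).1 h1.symm
  refine ⟨k, ?_⟩
  push_cast at hk
  linarith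

/-- gluing over `𝔽_5` -/
theorem liftA (s : ℤ) (z : S5) (h : zF5 s = z5 z) : ∃ A : Fin 5 → ℤ, ∑ i, A i = s ∧ cyc A = z := by
  have h1 : z5 z = zF5 (∑ i, coo z i) := by
    rw [sm5]
    simp [z5, rho5, coo, zF5]
    have h5 : (5 : F5) = 0 := rfl
    linear_combination (z.re.x1 : F5) * h5
  rw [h1] at h
  obtain ⟨k, hk⟩ := zF5_dvd h
  refine ⟨fun i => coo z i + k, ?_, ?_⟩
  · rw [hk, Finset.sum_add_distrib]
    simp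
  · conv_rhs => rw [← cyc_coo z]
    ext <;> simp [cyc] <;> ring

theorem liftAB (A B : Fin 5 → ℤ) (h : ∀ i, ∃ k, A i = B i + 2 * k) :
    ∃ u : Fin 10 → ℤ, Au u = A ∧ Bu u = B := by
  choose k hk using h
  refine ⟨![B 0 + k 0, k 1, B 2 + k 2, k 3, B 4 + k 4, k 0, B 1 + k 1, k 2, B 3 + k 3, k 4],
    ?_, ?_⟩
  · funext i
    fin_cases i
    · change B 0 + k 0 + k 0 = A 0
      rw [hk]; ring
    · change k 1 + (B 1 + k 1) = A 1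
      rw [hk]; ring
    · change B 2 + k 2 + k 2 = A 2
      rw [hk]; ring
    · change k 3 + (B 3 + k 3) = A 3
      rw [hk]; ring
    · change B 4 + k 4 + k 4 = A 4
      rw [hk]; ring
  · funext i
    fin_cases i
    · change B 0 + k 0 - k 0 = B 0
      ring
    · change (B 1 + k 1) - k 1 = B 1
      ring
    · change B 2 + k 2 - k 2 = B 2
      ring
    · change (B 3 + k 3) - k 3 = B 3
      ring
    · change B 4 + k 4 - k 4 = B 4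
      ring

theorem lift_all (s1 s2 : ℤ) (w3 w4 : S5) (h13 : zF5 s1 = z5 w3) (h24 : zF5 s2 = z5 w4)
    (h12 : zF2 s1 = zF2 s2) (h34 : z16 w3 = z16 w4) : ∃ u : Fin 10 → ℤ,
    ∑ i, Au u i = s1 ∧ ∑ i, Bu u i = s2 ∧ cyc (Au u) = w3 ∧ cyc (Bu u) = w4 := by
  obtain ⟨A, a1, a2⟩ := liftA s1 w3 h13
  obtain ⟨B, b1, b2⟩ := liftA s2 w4 h24
  obtain ⟨k0, h0⟩ := half_F2 h12
  obtain ⟨k1, h1⟩ := half_F2 (x := w3.re.x0) (y := w4.re.x0) (congrArg (fun z : L16 => z.re.x0) h34)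
  obtain ⟨k2, h2⟩ := half_F2 (x := w3.re.x1) (y := w4.re.x1) (congrArg (fun z : L16 => z.re.x1) h34)
  obtain ⟨k3, h3⟩ := half_F2 (x := w3.im.x0) (y := w4.im.x0) (congrArg (fun z : L16 => z.im.x0) h34)
  obtain ⟨k4, h4⟩ := half_F2 (x := w3.im.x1) (y := w4.im.x1) (congrArg (fun z : L16 => z.im.x1) h34)
  rw [sm5] at a1 b1
  rw [← a2, ← b2] at h1 h2 h3 h4
  simp only [cyc] at h1 h2 h3 h4
  have hAB : ∀ i, ∃ k, A i = B i + 2 * k := by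
    intro i
    have : (A i - B i) % 2 = 0 := by
      fin_cases i <;> simp <;> omega
    exact ⟨(A i - B i) / 2, by omega⟩
  obtain ⟨u, c1, c2⟩ := liftAB A B hAB
  refine ⟨u, ?_, ?_, ?_, ?_⟩
  · rw [c1, sm5]; exact a1
  · rw [c2, sm5]; exact b1
  · rw [c1]; exact a2
  · rw [c2]; exact b2

end Vale.Agent.P246.Q20
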