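import Vale.Agent.P246.Cyc.Base
import Vale.Agent.P246.Cyc.GamEquiv
import Mathlib.Analysis.SpecialFunctions.Sqrt
import Mathlib.Tactic

/-!
# The golden ring `Gol A = A[η]`, `η² = 1 - η`
-/

set_option linter.all false

namespace Vale.Agent.P246.Q20

open Vale.Agent.P246.Q24 Vale.Agent.P246.Cyc

/-- `x0 + x1 η`, `η² = 1 - η` -/
@[ext] structure Gol (A : Type) where
  x0 : A
  x1 : A
deriving DecidableEq

namespace Gol

variable {A : Type} [CommRing A]

instance : Zero (Gol A) := ⟨⟨0, 0⟩⟩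
instance : One (Gol A) := ⟨⟨1, 0⟩⟩
instance : Add (Gol A) := ⟨fun x y => ⟨x.x0 + y.x0, x.x1 + y.x1⟩⟩
instance : Neg (Gol A) := ⟨fun x => ⟨-x.x0, -x.x1⟩⟩
instance : Sub (Gol A) := ⟨fun x y => ⟨x.x0 - y.x0, x.x1 - y.x1⟩⟩
instance : Mul (Gol A) := ⟨fun x y => ⟨x.x0 * y.x0 + x.x1 * y.x1,
  x.x0 * y.x1 + x.x1 * y.x0 - x.x1 * y.x1⟩⟩
instance : SMul ℕ (Gol A) := ⟨fun n x => ⟨n • x.x0, n • x.x1⟩⟩
instance : SMul ℤ (Gol A) := ⟨fun n x => ⟨n • x.x0, n • x.x1⟩⟩
instance : NatCast (Gol A) := ⟨fun n => ⟨n, 0⟩⟩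
instance : IntCast (Gol A) := ⟨fun n => ⟨n, 0⟩⟩

@[simp] theorem zero_x0 : (0 : Gol A).x0 = 0 := rfl
@[simp] theorem zero_x1 : (0 : Gol A).x1 = 0 := rfl
@[simp] theorem one_x0 : (1 : Gol A).x0 = 1 := rfl
@[simp] theorem one_x1 : (1 : Gol A).x1 = 0 := rfl
@[simp] theorem add_x0 (x y : Gol A) : (x + y).x0 = x.x0 + y.x0 := rfl
@[simp] theorem add_x1 (x y : Gol A) : (x + y).x1 = x.x1 + y.x1 := rfl
@[simp] theorem neg_x0 (x : Gol A) : (-x).x0 = -x.x0 := rfl
@[simp] theorem neg_x1 (x : Gol A) : (-x).x1 = -x.x1 := rfl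
@[simp] theorem sub_x0 (x y : Gol A) : (x - y).x0 = x.x0 - y.x0 := rfl
@[simp] theorem sub_x1 (x y : Gol A) : (x - y).x1 = x.x1 - y.x1 := rfl
@[simp] theorem mul_x0 (x y : Gol A) : (x * y).x0 = x.x0 * y.x0 + x.x1 * y.x1 := rfl
@[simp] theorem mul_x1 (x y : Gol A) :
    (x * y).x1 = x.x0 * y.x1 + x.x1 * y.x0 - x.x1 * y.x1 := rfl
@[simp] theorem nsmul_x0 (n : ℕ) (x : Gol A) : (n • x).x0 = n • x.x0 := rfl
@[simp] theorem nsmul_x1 (n : ℕ) (x : Gol A) : (n • x).x1 = n • x.x1 := rfl
@[simp] theorem zsmul_x0 (n : ℤ) (x : Gol A) : (n • x).x0 = n • x.x0 := rfl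
@[simp] theorem zsmul_x1 (n : ℤ) (x : Gol A) : (n • x).x1 = n • x.x1 := rfl
@[simp] theorem natCast_x0 (n : ℕ) : (n : Gol A).x0 = n := rfl
@[simp] theorem natCast_x1 (n : ℕ) : (n : Gol A).x1 = 0 := rfl
@[simp] theorem intCast_x0 (n : ℤ) : (n : Gol A).x0 = n := rfl
@[simp] theorem intCast_x1 (n : ℤ) : (n : Gol A).x1 = 0 := rfl

instance : CommRing (Gol A) where
  add_assoc a b c := by ext <;> simp [add_assoc]
  zero_add a := by ext <;> simp
  add_zero a := by ext <;> simp
  add_comm a b := by ext <;> simp [add_comm]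
  neg_add_cancel a := by ext <;> simp
  sub_eq_add_neg a b := by ext <;> simp [sub_eq_add_neg]
  nsmul n x := n • x
  nsmul_zero x := by ext <;> simp
  nsmul_succ n x := by ext <;> simp [add_mul]
  zsmul n x := n • x
  zsmul_zero' x := by ext <;> simp
  zsmul_succ' n x := by ext <;> simp [add_mul]
  zsmul_neg' n x := by ext <;> simp <;> ring
  mul_assoc a b c := by ext <;> simp <;> ring
  one_mul a := by ext <;> simp
  mul_one a := by ext <;> simp
  mul_comm a b := by ext <;> simp <;> ring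
  left_distrib a b c := by ext <;> simp <;> ring
  right_distrib a b c := by ext <;> simp <;> ring
  zero_mul a := by ext <;> simp
  mul_zero a := by ext <;> simp
  natCast n := n
  natCast_zero := by ext <;> simp
  natCast_succ n := by ext <;> simp
  intCast n := n
  intCast_ofNat n := by ext <;> simp
  intCast_negSucc n := by ext <;> simp

@[simp] theorem ofNat_x0 (n : ℕ) [n.AtLeastTwo] : (ofNat(n) : Gol A).x0 = ofNat(n) := by
  change ((n : ℕ) : Gol A).x0 = _
  simp; rfl
@[simp] theorem ofNat_x1 (n : ℕ) [n.AtLeastTwo] : (ofNat(n) : Gol A).x1 = 0 := by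
  change ((n : ℕ) : Gol A).x1 = _
  simp

/-- the trivial involution -/
instance : Invo (Gol A) := ⟨RingHom.id _, fun _ => rfl⟩

@[simp] theorem conj_gol (x : Gol A) : (conj x : Gol A) = x := rfl

instance : Eta (Gol A) := ⟨⟨0, 1⟩⟩

@[simp] theorem eta_x0 : (eta : Gol A).x0 = 0 := rfl
@[simp] theorem eta_x1 : (eta : Gol A).x1 = 1 := rfl

/-- functoriality -/
def map {B : Type} [CommRing B] (f : A →+* B) : Gol A →+* Gol B where
  toFun := fun x => ⟨f x.x0, f x.x1⟩
  map_one' := by ext <;> simp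
  map_zero' := by ext <;> simp
  map_add' := fun x y => by ext <;> simp
  map_mul' := fun x y => by ext <;> simp

@[simp] theorem map_x0 {B : Type} [CommRing B] (f : A →+* B) (x : Gol A) :
    (map f x).x0 = f x.x0 := rfl
@[simp] theorem map_x1 {B : Type} [CommRing B] (f : A →+* B) (x : Gol A) :
    (map f x).x1 = f x.x1 := rfl

theorem map_eta {B : Type} [CommRing B] (f : A →+* B) : map f (eta : Gol A) = eta := by
  ext <;> simp

/-- evaluation at a root -/
def ev {B : Type} [CommRing B] (f : A →+* B) (θ : B) (h : θ * θ = 1 - θ) : Gol A →+* B where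
  toFun := fun x => f x.x0 + f x.x1 * θ
  map_one' := by simp
  map_zero' := by simp
  map_add' := fun x y => by simp; ring
  map_mul' := fun x y => by
    simp
    linear_combination (-(f x.x1 * f y.x1)) * h

@[simp] theorem ev_apply {B : Type} [CommRing B] (f : A →+* B) (θ : B) (h : θ * θ = 1 - θ)
    (x : Gol A) : ev f θ h x = f x.x0 + f x.x1 * θ := rfl

/-- constants -/
def C : A →+* Gol A where
  toFun := fun a => ⟨a, 0⟩
  map_one' := rfl
  map_zero' := rfl
  map_add' := fun x y => by ext <;> simp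
  map_mul' := fun x y => by ext <;> simp

@[simp] theorem C_x0 (a : A) : (C a : Gol A).x0 = a := rfl
@[simp] theorem C_x1 (a : A) : (C a : Gol A).x1 = 0 := rfl

/-- the Galois automorphism `η ↦ -1 - η` -/
def sig : Gol A →+* Gol A where
  toFun := fun x => ⟨x.x0 - x.x1, -x.x1⟩
  map_one' := by ext <;> simp
  map_zero' := by ext <;> simp
  map_add' := fun x y => by ext <;> simp <;> ring
  map_mul' := fun x y => by ext <;> simp <;> ring

@[simp] theorem sig_x0 (x : Gol A) : (sig x).x0 = x.x0 - x.x1 := rfl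
@[simp] theorem sig_x1 (x : Gol A) : (sig x).x1 = -x.x1 := rfl

theorem sig2 (x : Gol A) : sig (sig x) = x := by ext <;> simp

/-- the norm -/
def nm (x : Gol A) : A := x.x0 * x.x0 - x.x0 * x.x1 - x.x1 * x.x1

/-- the trace -/
def tr (x : Gol A) : A := 2 * x.x0 - x.x1

theorem nm_spec (x : Gol A) : x * sig x = C (nm x) := by
  ext
  · simp [nm]; ring
  · simp; ring

theorem nm_mul (x y : Gol A) : nm (x * y) = nm x * nm y := by
  simp [nm]; ring

theorem nm_sig (x : Gol A) : nm (sig x) = nm x := by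
  simp [nm]; ring

theorem nm_C (a : A) : nm (C a) = a * a := by simp [nm]

theorem nm_one : nm (1 : Gol A) = 1 := by simp [nm]

theorem tr_add (x y : Gol A) : tr (x + y) = tr x + tr y := by
  simp [tr]; ring

theorem tr_C_mul (a : A) (x : Gol A) : tr (C a * x) = a * tr x := by
  simp [tr]; ring

theorem C_inj {a b : A} (h : (C a : Gol A) = C b) : a = b := congrArg Gol.x0 h

end Gol

/-- `ℤ[η]` -/
abbrev K5 : Type := Gol ℤ
/-- `ℤ[ζ_5]` -/
abbrev S5 : Type := Zt K5

/-! ### real embeddings -/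

/-- the positive root of `θ² = 1 - θ` -/
noncomputable def th : ℝ := (√5 - 1) / 2

theorem th_spec : th * th = 1 - th := by
  have h : √5 * √5 = 5 := Real.mul_self_sqrt (by norm_num)
  rw [th]
  linear_combination h / 4

theorem s5_lo : (2.236 : ℝ) < √5 := by
  rw [Real.lt_sqrt (by norm_num)]
  norm_num

theorem s5_hi : √5 < (2.237 : ℝ) := by
  rw [Real.sqrt_lt' (by norm_num)]
  norm_num

/-- the first embedding -/
noncomputable def e1 : K5 →+* ℝ := Gol.ev (Int.castRingHom ℝ) th th_spec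
/-- the second embedding -/
noncomputable def e2 : K5 →+* ℝ := e1.comp Gol.sig

theorem e1_apply (x : K5) : e1 x = x.x0 + x.x1 * th := rfl
theorem e2_apply (x : K5) : e2 x = x.x0 - x.x1 - x.x1 * th := by
  change e1 (Gol.sig x) = _
  rw [e1_apply]
  simp
  ring

theorem e_nm (x : K5) : e1 x * e2 x = (Gol.nm x : ℤ) := by
  rw [e1_apply, e2_apply]
  simp [Gol.nm]
  linear_combination (-(x.x1 * x.x1 : ℝ)) * th_spec

theorem e_tr (x : K5) : e1 x + e2 x = (Gol.tr x : ℤ) := by
  rw [e1_apply, e2_apply]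
  simp [Gol.tr]
  ring

/-- totally non-negative -/
def TN (x : K5) : Prop := 0 ≤ e1 x ∧ 0 ≤ e2 x

theorem TN.add {x y : K5} (hx : TN x) (hy : TN y) : TN (x + y) :=
  ⟨by rw [map_add]; exact add_nonneg hx.1 hy.1, by rw [map_add]; exact add_nonneg hx.2 hy.2⟩

theorem TN.mul {x y : K5} (hx : TN x) (hy : TN y) : TN (x * y) :=
  ⟨by rw [map_mul]; exact mul_nonneg hx.1 hy.1, by rw [map_mul]; exact mul_nonneg hx.2 hy.2⟩

theorem TN_sq (x : K5) : TN (x * x) :=
  ⟨by rw [map_mul]; exact mul_self_nonneg _, by rw [map_mul]; exact mul_self_nonneg _⟩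

theorem TN.nm_nonneg {x : K5} (hx : TN x) : 0 ≤ Gol.nm x := by
  have h := e_nm x
  have h1 := mul_nonneg hx.1 hx.2
  rw [h] at h1
  exact_mod_cast h1

theorem TN.tr_nonneg {x : K5} (hx : TN x) : 0 ≤ Gol.tr x := by
  have h := e_tr x
  have h1 := add_nonneg hx.1 hx.2
  rw [h] at h1
  exact_mod_cast h1

theorem TN.sig {x : K5} (hx : TN x) : TN (Gol.sig x) := by
  refine ⟨hx.2, ?_⟩
  change 0 ≤ e1 (Gol.sig (Gol.sig x))
  rw [Gol.sig2]
  exact hx.1

/-- arithmetic and geometric mean -/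
theorem amgm (x : K5) : 4 * Gol.nm x ≤ Gol.tr x ^ 2 := by
  simp only [Gol.nm, Gol.tr]
  nlinarith [mul_self_nonneg x.x1]

theorem nm_eq_zero {x : K5} : Gol.nm x = 0 ↔ x = 0 := by
  constructor
  · intro h
    -- descent through the prime two
    have key : ∀ (k : ℕ) (x : K5), x.x0.natAbs + x.x1.natAbs ≤ k → Gol.nm x = 0 → x = 0 := by
      intro k
      induction k with
      | zero =>
        intro x h _
        ext <;> simp <;> omega
      | succ k ih =>
        intro x h1 h0
        have hp : (2 : ℤ) ∣ x.x0 ∧ (2 : ℤ) ∣ x.x1 := by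
          simp only [Gol.nm] at h0
          rcases Int.even_or_odd' x.x0 with ⟨a, ha | ha⟩ <;>
            rcases Int.even_or_odd' x.x1 with ⟨b, hb | hb⟩
          · exact ⟨⟨a, ha⟩, ⟨b, hb⟩⟩
          · exfalso
            rw [ha, hb] at h0
            have : (2 * a * (2 * a) - 2 * a * (2 * b + 1) - (2 * b + 1) * (2 * b + 1)) % 2 = 1 := by
              have e : 2 * a * (2 * a) - 2 * a * (2 * b + 1) - (2 * b + 1) * (2 * b + 1) =
                2 * (2 * a * a - a * (2 * b + 1) - 2 * b * b - 2 * b - 1) + 1 := by ring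
              rw [e]; omega
            rw [h0] at this
            omega
          · exfalso
            rw [ha, hb] at h0
            have e : (2 * a + 1) * (2 * a + 1) - (2 * a + 1) * (2 * b) - 2 * b * (2 * b) =
              2 * (2 * a * a + 2 * a - (2 * a + 1) * b - 2 * b * b) + 1 := by ring
            rw [e] at h0
            omega
          · exfalso
            rw [ha, hb] at h0
            have e : (2 * a + 1) * (2 * a + 1) - (2 * a + 1) * (2 * b + 1) -
              (2 * b + 1) * (2 * b + 1) =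
              2 * (2 * a * a + 2 * a - 2 * a * b - a - b - 2 * b * b - 2 * b - 1) + 1 := by ring
            rw [e] at h0
            omega
        obtain ⟨⟨a, ha⟩, ⟨b, hb⟩⟩ := hp
        obtain ⟨p, q⟩ := x
        simp only at ha hb h1
        subst ha hb
        have h2 : Gol.nm (⟨a, b⟩ : K5) = 0 := by
          simp only [Gol.nm] at h0 ⊢
          nlinarith
        by_cases h3 : a.natAbs + b.natAbs ≤ k
        · have h4 := ih ⟨a, b⟩ h3 h2
          have e0 : a = 0 := congrArg Gol.x0 h4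
          have e1 : b = 0 := congrArg Gol.x1 h4
          rw [e0, e1]
          rfl
        · exfalso
          omega
    exact key _ x le_rfl h
  · rintro rfl
    simp [Gol.nm]

theorem e1_inj {x : K5} (h : e1 x = 0) : x = 0 := by
  apply nm_eq_zero.1
  have h1 := e_nm x
  rw [h, zero_mul] at h1
  exact_mod_cast h1.symm

/-! ### division in `ℤ[η]` -/

theorem near (x m : ℤ) (hm : 0 < m) : ∃ q : ℤ, 4 * ((x - q * m) * (x - q * m)) ≤ m * m := by
  have h1 := Int.emod_nonneg x hm.ne'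
  have h2 := Int.emod_lt_of_pos x hm
  have h3 := Int.emod_add_mul_ediv x m
  by_cases h : 2 * (x % m) ≤ m
  · refine ⟨x / m, ?_⟩
    have : x - x / m * m = x % m := by linear_combination -h3
    rw [this]
    nlinarith
  · refine ⟨x / m + 1, ?_⟩
    have : x - (x / m + 1) * m = x % m - m := by linear_combination -h3
    rw [this]
    nlinarith

theorem euclid (a n : K5) (hn : n ≠ 0) : ∃ q, (Gol.nm (a - n * q)).natAbs < (Gol.nm n).natAbs := by
  have hN : Gol.nm n ≠ 0 := fun h => hn (nm_eq_zero.1 h)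
  obtain ⟨M, hM⟩ : ∃ M : ℤ, M = Gol.nm n * Gol.nm n := ⟨_, rfl⟩
  have hM0 : 0 < M := by rw [hM]; exact mul_self_pos.2 hN
  -- `n * (nm n * sig n) = M`
  obtain ⟨c, hc⟩ : ∃ c : K5, c = Gol.C (Gol.nm n) * Gol.sig n := ⟨_, rfl⟩
  have hnc : n * c = Gol.C M := by
    rw [hc, hM, map_mul, ← Gol.nm_spec]
    ring
  obtain ⟨p, hp⟩ := near (a * c).x0 M hM0
  obtain ⟨r, hr⟩ := near (a * c).x1 M hM0
  refine ⟨⟨p, r⟩, ?_⟩
  have h1 : a * c - Gol.C M * ⟨p, r⟩ = (a - n * ⟨p, r⟩) * c := by
    rw [← hnc]; ring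
  have h2 : Gol.nm c * Gol.nm n = M * M := by
    rw [← Gol.nm_C, ← hnc, Gol.nm_mul]; ring
  have h3 := congrArg Gol.nm h1
  rw [Gol.nm_mul] at h3
  have h4 : (a * c - Gol.C M * ⟨p, r⟩).x0 = (a * c).x0 - p * M := by simp; ring
  have h5 : (a * c - Gol.C M * ⟨p, r⟩).x1 = (a * c).x1 - r * M := by simp; ring
  have h6 : Gol.nm (a * c - Gol.C M * ⟨p, r⟩) = ((a * c).x0 - p * M) * ((a * c).x0 - p * M) -
      ((a * c).x0 - p * M) * ((a * c).x1 - r * M) -
      ((a * c).x1 - r * M) * ((a * c).x1 - r * M) := by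
    rw [Gol.nm, h4, h5]
  rw [h6] at h3
  generalize (a * c).x0 - p * M = u at *
  generalize (a * c).x1 - r * M = v at *
  generalize Gol.nm (a - n * ⟨p, r⟩) = z at *
  generalize Gol.nm c = k at *
  generalize Gol.nm n = N at *
  -- `|u² - u v - v²| < M²`
  have h7 : |u * u - u * v - v * v| < M * M := by
    have hMM : 0 < M * M := by positivity
    rw [abs_lt]
    constructor
    · nlinarith [mul_self_nonneg (u - v), mul_self_nonneg (u + v)]
    · nlinarith [mul_self_nonneg (u - v), mul_self_nonneg (u + v)]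
  rw [h3, abs_mul] at h7
  have h8 : |k| * |N| = M * M := by
    rw [← abs_mul, h2, abs_of_pos (by positivity)]
  have h9 : |z| * |k| * |N| < M * M * |N| := mul_lt_mul_of_pos_right h7 (abs_pos.2 hN)
  have hk : 0 < M * M := by positivity
  have h10 : |z| < |N| := by
    have : |z| * (M * M) < |N| * (M * M) := by
      rw [← h8]
      calc |z| * (|k| * |N|) = |z| * |k| * |N| := by ring
        _ < M * M * |N| := h9
        _ = |N| * (|k| * |N|) := by rw [← h8]; ring
    exact lt_of_mul_lt_mul_right this hk.le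
  rw [Int.abs_eq_natAbs, Int.abs_eq_natAbs] at h10
  exact_mod_cast h10

theorem bez5 : Bez K5 := by
  intro a b
  induction hk : (Gol.nm b).natAbs using Nat.strong_induction_on generalizing a b with
  | _ k ih =>
    by_cases hb : b = 0
    · exact ⟨1, 0, 0, 1, a, by ring, by rw [hb]; ring, by rw [hb]; ring⟩
    · obtain ⟨q, hq⟩ := euclid a b hb
      obtain ⟨x, y, z, w, h, e1, e2, e3⟩ := ih _ (by rw [← hk]; exact hq) b (a - b * q) rfl
      refine ⟨y, x - y * q, -w, -(z - w * q), h, ?_, ?_, ?_⟩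
      · linear_combination e1
      · linear_combination e2
      · linear_combination -e3

/-- transitivity for `ℤ[ζ_5] ∘ C_2` -/
theorem TR_S5f : TR (Dbl S5 false) := TR_Zt bez5 ⟨1, -1⟩ (by decide)

end Vale.Agent.P246.Q20
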