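import Vale.Agent.P246.Q20.Ab
import Vale.Agent.P246.Cyc.Lift2

/-!
# Lifting units to `ℤ[ζ_5] ∘ C_2`
-/

set_option linter.all false

namespace Vale.Agent.P246.Q20

open Vale.Agent.P246.Q24 Vale.Agent.P246.Cyc

/-- `𝔽_4` -/
abbrev L4 : Type := Gol F2
/-- `𝔽_16` -/
abbrev L16 : Type := Zt L4
/-- `𝔽_5` -/
abbrev F5 : Type := ZMod 5

instance {A : Type} [Fintype A] : Fintype (Gol A) :=
  Fintype.ofEquiv (A × A) ⟨fun x => ⟨x.1, x.2⟩, fun x => (x.x0, x.x1),
    fun _ => rfl, fun _ => rfl⟩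

/-- reduction modulo two -/
def m2 : K5 →+* L4 := Gol.map zF2

theorem m2_pi : m2 (2 - eta) = 2 - eta := by decide
theorem m2_eta : m2 eta = eta := by decide

/-- reduction modulo two -/
def g2 : Gam K5 (2 - eta) →+* Gam L4 (2 - eta) := Gam.map m2 m2_pi

/-- an integral lift which is divisible by `N` -/
def lf (N : ℤ) (y : L4) : K5 := ⟨N * y.x0.val, N * y.x1.val⟩

theorem lf_spec {N : ℤ} (hN : zF2 N = 1) (y : L4) : m2 (lf N y) = y := by
  have h : ∀ z : F2, zF2 (N * z.val) = z := by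
    intro z
    rw [map_mul, hN, one_mul]
    revert z
    decide
  ext
  · exact h _
  · exact h _

theorem L4_inv : ∀ c : L4, c ≠ 0 → ∃ e : L4, (2 - eta) * c * e = 1 := by decide

theorem L4_gen : ∀ c : L4, c ≠ 0 →
    ∃ k : Fin 3, ((eta : L4) ^ 4) ^ (k : ℕ) * (eta ^ 4) ^ (k : ℕ) * c = 1 := by decide

/-- the inverse of `η` -/
def ei : K5 := ⟨1, 1⟩

theorem ei_spec : eta * ei = 1 := by decide

section

variable {C' : Type} [Ring C'] (q : Gam K5 (2 - eta) →+* C') {N : ℤ}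

/-- liftable with trivial image under `q` -/
def Lq (δ : Gam L4 (2 - eta)) : Prop := Lft (g2.prod q) (δ, 1)

theorem Lq.mul {x y : Gam L4 (2 - eta)} (hx : Lq q x) (hy : Lq q y) : Lq q (x * y) := by
  have h := Lft.mul hx hy
  rw [Prod.mk_mul_mk, one_mul] at h
  exact h

theorem Lq.pow {x : Gam L4 (2 - eta)} (hx : Lq q x) (n : ℕ) : Lq q (x ^ n) := by
  have h := Lft.pow hx n
  rw [Prod.pow_mk, one_pow] at h
  exact h

theorem Lq.cancel {x y : Gam L4 (2 - eta)} (hx : Lq q x) (h : Lq q (x * y)) :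
    Lq q y := by
  refine Lft.cancel hx ?_
  rw [Prod.mk_mul_mk, one_mul]
  exact h

theorem q_N (hq : q (N : Gam K5 (2 - eta)) = 0) (x : Gam K5 (2 - eta)) :
    q (N • x) = 0 := by
  rw [zsmul_eq_mul, map_mul, hq, zero_mul]

theorem Gam_zsmul (n : ℤ) (x : Gam K5 (2 - eta)) :
    n • x = (Gam.S (n : K5) : Gam K5 (2 - eta)) * x := by
  rw [zsmul_eq_mul]
  congr 1
  induction n with
  | zero => rw [Int.cast_zero]; ext <;> simp [Gam.S]
  | succ n ih =>
    rw [Int.cast_add, ih, Int.cast_one]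
    ext <;> simp [Gam.S]
  | pred n ih =>
    rw [Int.cast_sub, ih, Int.cast_one]
    ext <;> simp [Gam.S]

theorem Lq_U (hN : zF2 N = 1) (hq : q (N : Gam K5 (2 - eta)) = 0) (y : L4) :
    Lq q (Gam.U y) := by
  refine ⟨Gam.U (lf N y), Gam.U (-lf N y), Gam.U_inv _, ?_, ?_⟩
  · have := Gam.U_inv (π := (2 - eta : K5)) (-lf N y)
    rwa [neg_neg] at this
  · apply Prod.ext
    · change g2 (Gam.U (lf N y)) = Gam.U y
      ext1
      · exact map_one m2
      · exact lf_spec hN y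
      · exact map_zero m2
      · exact map_one m2
    · change q (Gam.U (lf N y)) = 1
      have h : (Gam.U (lf N y) : Gam K5 (2 - eta)) =
          1 + N • ⟨0, ⟨y.x0.val, y.x1.val⟩, 0, 0⟩ := by
        rw [Gam_zsmul]
        ext <;> simp [Gam.S, Gam.U, lf]
      rw [h, map_add, map_one, q_N q hq, add_zero]

theorem Lq_Lo (hN : zF2 N = 1) (hq : q (N : Gam K5 (2 - eta)) = 0) (y : L4) :
    Lq q (Gam.Lo y) := by
  refine ⟨Gam.Lo (lf N y), Gam.Lo (-lf N y), Gam.Lo_inv _, ?_, ?_⟩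
  · have := Gam.Lo_inv (π := (2 - eta : K5)) (-lf N y)
    rwa [neg_neg] at this
  · apply Prod.ext
    · change g2 (Gam.Lo (lf N y)) = Gam.Lo y
      ext1
      · exact map_one m2
      · exact map_zero m2
      · exact lf_spec hN y
      · exact map_one m2
    · change q (Gam.Lo (lf N y)) = 1
      have h : (Gam.Lo (lf N y) : Gam K5 (2 - eta)) =
          1 + N • ⟨0, 0, ⟨y.x0.val, y.x1.val⟩, 0⟩ := by
        rw [Gam_zsmul]
        ext <;> simp [Gam.S, Gam.Lo, lf]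
      rw [h, map_add, map_one, q_N q hq, add_zero]

theorem Lq_S (hη : q (Gam.S eta) ^ 4 = 1) : Lq q (Gam.S (eta ^ 4)) := by
  refine ⟨Gam.S (eta ^ 4), Gam.S (ei ^ 4), ?_, ?_, ?_⟩
  · rw [Gam.S_mul, ← mul_pow, ei_spec, one_pow, Gam.S_one]
  · rw [Gam.S_mul, ← mul_pow, mul_comm, ei_spec, one_pow, Gam.S_one]
  · apply Prod.ext
    · change g2 (Gam.S (eta ^ 4)) = Gam.S (eta ^ 4)
      have h : m2 (eta ^ 4) = eta ^ 4 := by rw [map_pow, m2_eta]
      ext1
      · exact h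
      · exact map_zero m2
      · exact map_zero m2
      · exact h
    · change q (Gam.S (eta ^ 4)) = 1
      rw [← Gam.S_pow, map_pow, hη]

theorem Lq_dt (hN : zF2 N = 1) (hq : q (N : Gam K5 (2 - eta)) = 0)
    (x : Gam L4 (2 - eta)) (hx : x.dt = 1) : Lq q x := by
  have key : ∀ x : Gam L4 (2 - eta), x.dt = 1 → x.c ≠ 0 → Lq q x := by
    intro x hx hc
    obtain ⟨e, he⟩ := L4_inv x.c hc
    rw [Gam.fac x hx he]
    exact (((Lq_U q hN hq _).mul q (Lq_Lo q hN hq _)).mul q (Lq_U q hN hq _))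
  by_cases hc : x.c = 0
  · refine Lq.cancel q (Lq_Lo q hN hq 1) (key _ ?_ ?_)
    · rw [Gam.dt_mul, hx, mul_one]
      simp [Gam.dt, Gam.Lo]
    · have h1 : (Gam.Lo 1 * x).c = x.a := by simp [Gam.Lo, hc]
      rw [h1]
      intro h2
      rw [Gam.dt, hc, h2] at hx
      simp at hx
      have h3 := congrArg Gol.x0 hx
      have h4 : (0 : F2) = 1 := h3
      exact absurd h4 (by decide)
  · exact key x hx hc

/-- every unit lifts to a unit which is trivial under `q` -/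
theorem Lq_all (hN : zF2 N = 1) (hq : q (N : Gam K5 (2 - eta)) = 0)
    (hη : q (Gam.S eta) ^ 4 = 1) (x x' : Gam L4 (2 - eta)) (h : x * x' = 1) : Lq q x := by
  have h1 : x.dt * x'.dt = 1 := by rw [← Gam.dt_mul, h, Gam.dt_one]
  have h2 : x.dt ≠ 0 := by
    intro h0
    rw [h0, zero_mul] at h1
    have h3 := congrArg Gol.x0 h1
    have h4 : (0 : F2) = 1 := h3
    exact absurd h4 (by decide)
  obtain ⟨k, hk⟩ := L4_gen _ h2
  refine Lq.cancel q ((Lq_S q hη).pow q (k : ℕ)) (Lq_dt q hN hq _ ?_)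
  rw [Gam.dt_mul, Gam.S_pow, Gam.S_dt, hk]

end

/-- reduction modulo two -/
def z16 : S5 →+* L16 := Zt.map m2 m2_eta

theorem z16_conj (x : S5) : z16 (conj x) = conj (z16 x) := Zt.map_conj _ _ x

/-- `T3 → 𝔽_16 ∘ C_2` -/
def a34 : Dbl S5 false →+* Dbl L16 false := Dbl.map z16 z16_conj

/-- `gamEquiv` over the integers -/
def gZ : Dbl S5 false ≃+* Gam K5 (2 - eta) := gamEquiv ⟨1, -1⟩ (by decide)
/-- `gamEquiv` modulo two -/
def gF : Dbl L16 false ≃+* Gam L4 (2 - eta) := gamEquiv ⟨1, 1⟩ (by decide)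

theorem gF_a34 (x : Dbl S5 false) : gF (a34 x) = g2 (gZ x) := by
  have h := m2_pi
  ext1
  · change m2 x.fst.re + m2 x.fst.im + m2 x.snd.re + m2 x.snd.im = m2 (_ + _ + _ + _)
    rw [map_add, map_add, map_add]
  · change m2 x.snd.re + m2 x.fst.im = m2 (_ + _)
    rw [map_add]
  · change -m2 x.fst.im - m2 x.snd.im = m2 (-_ - _)
    rw [map_sub, map_neg]
  · change m2 x.fst.re + m2 x.fst.im - (2 - eta) * m2 x.fst.im - m2 x.snd.re -
      m2 x.snd.im = m2 (_ + _ - _ * _ - _ - _)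
    rw [map_sub, map_sub, map_sub, map_add, map_mul, h]

/-- every unit of `𝔽_16 ∘ C_2` lifts to a unit which is trivial under `q` -/
theorem lft5 {C' : Type} [Ring C'] (q : Dbl S5 false →+* C') {N : ℤ}
    (hN : zF2 N = 1) (hq : q (N : Dbl S5 false) = 0)
    (hη : q (Dbl.C (Zt.C eta)) ^ 4 = 1) (δ δ' : Dbl L16 false) (h : δ * δ' = 1) :
    Lft (a34.prod q) (δ, 1) := by
  have hS : gZ.symm (Gam.S eta) = Dbl.C (Zt.C eta) := by
    rw [RingEquiv.symm_apply_eq]
    ext1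
    · change eta = eta + 0 + 0 + 0
      ring
    · change (0 : K5) = 0 + 0
      ring
    · change (0 : K5) = -0 - 0
      ring
    · change eta = eta + 0 - (2 - eta) * 0 - 0 - 0
      ring
  obtain ⟨ε, ε', h1, h2, h3⟩ := Lq_all (q.comp gZ.symm.toRingHom) (N := N) hN
    (by
      change q (gZ.symm (N : Gam K5 (2 - eta))) = 0
      rw [map_intCast, hq])
    (by
      change q (gZ.symm (Gam.S eta)) ^ 4 = 1
      rw [hS, hη])
    (gF δ) (gF δ') (by rw [← map_mul, h, map_one])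
  refine ⟨gZ.symm ε, gZ.symm ε', ?_, ?_, ?_⟩
  · rw [← map_mul, h1, map_one]
  · rw [← map_mul, h2, map_one]
  · apply Prod.ext
    · change a34 (gZ.symm ε) = δ
      apply gF.injective
      rw [gF_a34, RingEquiv.apply_symm_apply]
      exact congrArg Prod.fst h3
    · have h4 := congrArg Prod.snd h3
      exact h4

/-- reduction modulo `2 - η` -/
def rho5 : K5 →+* F5 := Gol.ev (Int.castRingHom F5) 2 (by decide)

theorem rho5_eta : rho5 eta = 2 := by decide

/-- reduction modulo `1 - ζ` -/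
def z5 : S5 →+* F5 := Zt.red1 rho5 rho5_eta

theorem z5_conj (x : S5) : z5 (conj x) = conj (z5 x) := Zt.red1_conj rho5 rho5_eta x

/-- `T3 → 𝔽_5[C_2]` -/
def b13 : Dbl S5 false →+* Dbl F5 false := Dbl.map z5 z5_conj

theorem b13_five : b13 ((5 : ℤ) : Dbl S5 false) = 0 := by
  rw [map_intCast]
  decide

theorem b13_eta : b13 (Dbl.C (Zt.C eta)) ^ 4 = 1 := by decide +kernel

theorem lift_a (δ δ' : Dbl L16 false) (h : δ * δ' = 1) : Lft (a34.prod b13) (δ, 1) :=
  lft5 b13 (N := 5) (by decide) b13_five b13_eta δ δ' h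

/-- a unit of `ℤ[η]` congruent to `1` modulo two with given residue -/
theorem K5_unit (s : F5) (hs : s ≠ 0) : ∃ u u' : K5, u * u' = 1 ∧ m2 u = 1 ∧
    rho5 u = s := by
  have key : ∀ s : F5, s ≠ 0 → ∃ k : Fin 4, rho5 ((eta ^ 3) ^ (k : ℕ)) = s := by decide +kernel
  obtain ⟨k, h⟩ := key s hs
  refine ⟨(eta ^ 3) ^ (k : ℕ), (ei ^ 3) ^ (k : ℕ), ?_, ?_, h⟩
  · rw [← mul_pow, ← mul_pow, ei_spec, one_pow, one_pow]
  · have key2 : ∀ k : Fin 4, m2 ((eta ^ 3) ^ (k : ℕ)) = 1 := by decide +kernel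
    exact key2 k

theorem b13_symm (g : Gam K5 (2 - eta)) : b13 (gZ.symm g) =
    ⟨3 * (rho5 g.a + rho5 g.d), 3 * (rho5 g.a - rho5 g.d)⟩ := by
  obtain ⟨x, rfl⟩ := gZ.surjective g
  rw [RingEquiv.symm_apply_apply]
  have h1 : rho5 (gZ x).a = rho5 x.fst.re + rho5 x.fst.im + rho5 x.snd.re + rho5 x.snd.im := by
    change rho5 (_ + _ + _ + _) = _
    rw [map_add, map_add, map_add]
  have h2 : rho5 (gZ x).d = rho5 x.fst.re + rho5 x.fst.im - rho5 x.snd.re - rho5 x.snd.im := by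
    change rho5 (_ + _ - (2 - eta) * _ - _ - _) = _
    have h3 : rho5 (2 - eta) = 0 := by decide
    rw [map_sub, map_sub, map_sub, map_add, map_mul, h3, zero_mul, sub_zero]
  rw [h1, h2]
  have h7 : (5 : F5) = 0 := rfl
  ext
  · change rho5 x.fst.re + rho5 x.fst.im = _
    linear_combination -(rho5 x.fst.re + rho5 x.fst.im) * h7
  · change rho5 x.snd.re + rho5 x.snd.im = _
    linear_combination -(rho5 x.snd.re + rho5 x.snd.im) * h7

theorem Gam_diag {P : Type} [CommRing P] {π : P} {u u' v v' : P} (h : u * u' = 1) (k : v * v' = 1) :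
    (⟨u, 0, 0, v⟩ : Gam P π) * ⟨u', 0, 0, v'⟩ = 1 := by
  ext <;> simp [h, k]

theorem lift_b (d d' : Dbl F5 false) (h : d * d' = 1) : Lft (a34.prod b13) (1, d) := by
  have hu : d.fst + d.snd ≠ 0 ∧ d.fst - d.snd ≠ 0 := by
    have h1 := congrArg Dbl.fst h
    have h2 := congrArg Dbl.snd h
    simp [conj] at h1 h2
    constructor
    · intro h0
      have h3 : (d.fst + d.snd) * (d'.fst + d'.snd) = 1 := by linear_combination h1 + h2
      rw [h0, zero_mul] at h3
      exact absurd h3 (by decide)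
    · intro h0
      have h3 : (d.fst - d.snd) * (d'.fst - d'.snd) = 1 := by linear_combination h1 - h2
      rw [h0, zero_mul] at h3
      exact absurd h3 (by decide)
  obtain ⟨u, u', u1, u2, u3⟩ := K5_unit _ hu.1
  obtain ⟨v, v', v1, v2, v3⟩ := K5_unit _ hu.2
  refine ⟨gZ.symm ⟨u, 0, 0, v⟩, gZ.symm ⟨u', 0, 0, v'⟩, ?_, ?_, ?_⟩
  · rw [← map_mul, Gam_diag u1 v1, map_one]
  · rw [← map_mul, Gam_diag (by rw [mul_comm]; exact u1) (by rw [mul_comm]; exact v1), map_one]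
  · apply Prod.ext
    · change a34 (gZ.symm ⟨u, 0, 0, v⟩) = 1
      apply gF.injective
      rw [gF_a34, RingEquiv.apply_symm_apply, map_one]
      ext1
      · exact u2
      · exact map_zero _
      · exact map_zero _
      · exact v2
    · change b13 (gZ.symm ⟨u, 0, 0, v⟩) = d
      rw [b13_symm]
      change (⟨3 * (rho5 u + rho5 v), 3 * (rho5 u - rho5 v)⟩ : Dbl F5 false) = d
      rw [u3, v3]
      have h7 : (5 : F5) = 0 := rfl
      ext
      · change 3 * (d.fst + d.snd + (d.fst - d.snd)) = d.fst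
        linear_combination d.fst * h7
      · change 3 * (d.fst + d.snd - (d.fst - d.snd)) = d.snd
        linear_combination d.snd * h7

/-- every pair of units lifts to a unit of `ℤ[ζ_5] ∘ C_2` -/
theorem lift3 (δ δ' : Dbl L16 false) (h : δ * δ' = 1) (d d' : Dbl F5 false) (k : d * d' = 1) :
    ∃ ε ε' : Dbl S5 false, ε * ε' = 1 ∧ ε' * ε = 1 ∧ a34 ε = δ ∧ b13 ε = d := by
  obtain ⟨ε, ε', h1, h2, h3⟩ := (lift_a δ δ' h).mul (lift_b d d' k)
  rw [Prod.mk_mul_mk, one_mul, mul_one] at h3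
  exact ⟨ε, ε', h1, h2, congrArg Prod.fst h3, congrArg Prod.snd h3⟩

end Vale.Agent.P246.Q20
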