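import Vale.Agent.P246.Q20.Coord
import Vale.Agent.P246.Q36.W2
import Vale.Agent.P246.Q36.Maps

/-!
# The D(2) property for `Q_20`
-/

set_option linter.all false

namespace Vale.Agent.P246.Q20

open Vale.Agent.P246 Vale.Agent.P246.Q24 Vale.Agent.P246.Cyc Vale.Agent.P246.Gen
  Vale.Agent.P246.Small QuaternionGroup

/-! ### the plus side -/

/-- `ℤ[D_10]` as a fibre product -/
def RP : Subring (T1 × T3) :=
  RingHom.eqLocus (a13.comp (RingHom.fst T1 T3)) (b13.comp (RingHom.snd T1 T3))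

/-- the first coordinate -/
def f1 : RP →+* T1 := (RingHom.fst T1 T3).comp RP.subtype
/-- the second coordinate -/
def f3 : RP →+* T3 := (RingHom.snd T1 T3).comp RP.subtype

theorem f13 (t : RP) : a13 (f1 t) = b13 (f3 t) := t.2

theorem TR_T1 : TR T1 := Q36.TR_DblZ false

theorem TR_RP : TR RP := by
  refine TR_glue f3 f1 b13 a13 (fun t => (f13 t).symm) ?_ ?_ TR_S5f TR_T1 ?_
  · intro t h1 h2
    apply Subtype.ext
    exact Prod.ext h2 h1
  · intro x y h
    exact ⟨⟨(y, x), h.symm⟩, rfl, rfl⟩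
  · intro δ δ' h _
    obtain ⟨ε, ε', h1, h2, -, h4⟩ := lift3 1 1 (one_mul 1) δ δ' h
    exact ⟨ε, ε', h1, h2, h4⟩

/-! ### the minus side -/

/-- the fibre product of `ℤ[i]` and `ℤ[ζ_5, j]` -/
def RM : Subring (T2 × T4) :=
  RingHom.eqLocus (a24.comp (RingHom.fst T2 T4)) (b24.comp (RingHom.snd T2 T4))

/-- the first coordinate -/
def f2 : RM →+* T2 := (RingHom.fst T2 T4).comp RM.subtype
/-- the second coordinate -/
def f4 : RM →+* T4 := (RingHom.snd T2 T4).comp RM.subtype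

theorem f24 (t : RM) : a24 (f2 t) = b24 (f4 t) := t.2

/-- the determinant of an invertible matrix over `ℤ[ζ_5, j]` -/
theorem Dt_T4 (g k : Matrix (Fin 2) (Fin 2) T4) (hgk : g * k = 1) :
    z5 (Dt g) = 1 ∨ z5 (Dt g) = -1 := by
  obtain ⟨v, h1, h2⟩ := Dt_TN5 g
  obtain ⟨w, h3, h4⟩ := Dt_TN5 k
  have h5 := congrArg Dt hgk
  rw [Dt_mul, Dt_one, h1, h3, ← map_mul] at h5
  have h6 : v * w = 1 := Zt.C_inj (h5.trans (map_one _).symm)
  have h7 := congrArg Gol.nm h6
  rw [Gol.nm_mul, Gol.nm_one] at h7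
  have h8 : Gol.nm v = 1 := by
    rcases Int.isUnit_iff.1 (IsUnit.of_mul_eq_one _ h7) with h | h
    · exact h
    · have := h2.nm_nonneg
      linarith
  have h9 : z5 (Dt g) = rho5 v := by
    rw [h1]
    simp [z5]
  have h10 : rho5 v * rho5 v = 1 := by
    have e : ((Gol.nm v : ℤ) : F5) = rho5 v * rho5 v := by
      have h5' : (5 : F5) = 0 := rfl
      simp [rho5, Gol.nm]
      linear_combination (-(v.x0 : F5) * v.x1 - (v.x1 : F5) * v.x1) * h5'
    rw [← e, h8]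
    simp
  rw [h9]
  generalize rho5 v = r at h10
  revert r
  decide

/-- units of `ℤ[ζ_5, j]` and their inverses -/
def l8 : List (T4 × T4) :=
  let n : T4 := ⟨⟨⟨0, 1⟩, ⟨0, 0⟩⟩, 0⟩
  let m : T4 := ⟨⟨⟨1, 1⟩, ⟨0, 0⟩⟩, 0⟩
  let j : T4 := ⟨0, 1⟩
  [(1, 1), (-1, -1), (j, -j), (-j, j), (n, m), (-n, -m), (n * j, -(m * j)), (-(n * j), m * j)]

theorem l8_spec : ∀ p ∈ l8, p.1 * p.2 = 1 ∧ p.2 * p.1 = 1 := by decide +kernel

instance : Fintype (Dbl F5 true) :=
  Fintype.ofEquiv (F5 × F5) ⟨fun p => ⟨p.1, p.2⟩, fun x => (x.fst, x.snd), fun _ => rfl,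
    fun _ => rfl⟩

theorem l8_lift : ∀ δ : Dbl F5 true, (Dbl.nrd δ = 1 ∨ Dbl.nrd δ = -1) →
    ∃ p ∈ l8, b24 p.1 = δ := by decide +kernel

theorem TR_RM : TR RM := by
  refine Q36.TR_glue' f4 f2 b24 a24 (fun t => (f24 t).symm) ?_ ?_ TR_S5t Q36.TR_Zj ?_
  · intro t h1 h2
    apply Subtype.ext
    exact Prod.ext h2 h1
  · intro x y h
    exact ⟨⟨(y, x), h.symm⟩, rfl, rfl⟩
  · intro a b gA kA gB kB CA CB δ δ' d1 d2 d3 d4
    have CA' := CA.map b24
    have CB' := CB.map a24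
    rw [f24, f24] at CB'
    have h1 := Q36.cmp_Dt CB' CA' d3 d4
    have h2 : Dt (a24.mapMatrix gB) = 1 := by
      rw [show a24 = Dbl.map zF5 zF5_conj from rfl, Dt_map, Q36.Dt_Zj gB kB CB.gk, map_one]
    have h3 : Dt (b24.mapMatrix gA) = z5 (Dt gA) := by
      rw [show b24 = Dbl.map z5 z5_conj from rfl, Dt_map]
    rw [h2, h3] at h1
    have h4 : Dbl.nrd δ = 1 ∨ Dbl.nrd δ = -1 := by
      rcases Dt_T4 gA kA CA.gk with h | h
      · left
        rw [h, mul_one] at h1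
        exact h1.symm
      · right
        rw [h] at h1
        linear_combination h1
    obtain ⟨p, hp, h5⟩ := l8_lift δ h4
    obtain ⟨s1, s2⟩ := l8_spec p hp
    exact ⟨p.1, p.2, s1, s2, h5⟩

/-! ### gluing the two sides -/

/-- the residue ring -/
abbrev CC : Type := Dbl F2 false × Dbl L16 false

/-- reduction of the plus side -/
def qP : RP →+* CC := (a12.comp f1).prod (a34.comp f3)
/-- reduction of the minus side -/
def qM : RM →+* CC := (b12.comp f2).prod (b34.comp f4)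

/-- the projection of the group ring to the plus side -/
noncomputable def pP : ZG (QuaternionGroup 5) →+* RP :=
  (p1.prod p3).codRestrict RP (fun z => p_13 z)
/-- the projection of the group ring to the minus side -/
noncomputable def pM : ZG (QuaternionGroup 5) →+* RM :=
  (p2.prod p4).codRestrict RM (fun z => p_24 z)

theorem f1_pP (z : ZG (QuaternionGroup 5)) : f1 (pP z) = p1 z := rfl
theorem f3_pP (z : ZG (QuaternionGroup 5)) : f3 (pP z) = p3 z := rfl
theorem f2_pM (z : ZG (QuaternionGroup 5)) : f2 (pM z) = p2 z := rfl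
theorem f4_pM (z : ZG (QuaternionGroup 5)) : f4 (pM z) = p4 z := rfl

theorem inj_PM (z : ZG (QuaternionGroup 5)) (h1 : pP z = 0) (h2 : pM z = 0) : z = 0 := by
  have e1 : p1 z = 0 := by rw [← f1_pP, h1, map_zero]
  have e3 : p3 z = 0 := by rw [← f3_pP, h1, map_zero]
  have e2 : p2 z = 0 := by rw [← f2_pM, h2, map_zero]
  have e4 : p4 z = 0 := by rw [← f4_pM, h2, map_zero]
  obtain ⟨u, v, rfl⟩ := exists_cmb z
  rw [p1_cmb] at e1
  rw [p2_cmb] at e2
  rw [p3_cmb] at e3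
  rw [p4_cmb] at e4
  have hu := u_zero u (congrArg Dbl.fst e1) (congrArg Dbl.fst e2) (congrArg Dbl.fst e3)
    (congrArg Dbl.fst e4)
  have hv := u_zero v (congrArg Dbl.snd e1) (congrArg Dbl.snd e2) (congrArg Dbl.snd e3)
    (congrArg Dbl.snd e4)
  rw [hu, hv]
  simp [cmb]

theorem surj_PM (s : RP) (t : RM) (h : qP s = qM t) : ∃ z, pP z = s ∧ pM z = t := by
  have h12 : a12 (f1 s) = b12 (f2 t) := congrArg Prod.fst h
  have h34 : a34 (f3 s) = b34 (f4 t) := congrArg Prod.snd h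
  have h13 := f13 s
  have h24 := f24 t
  obtain ⟨u, u1, u2, u3, u4⟩ := lift_all (f1 s).fst (f2 t).fst (f3 s).fst (f4 t).fst
    (congrArg Dbl.fst h13) (congrArg Dbl.fst h24) (congrArg Dbl.fst h12) (congrArg Dbl.fst h34)
  obtain ⟨v, v1, v2, v3, v4⟩ := lift_all (f1 s).snd (f2 t).snd (f3 s).snd (f4 t).snd
    (congrArg Dbl.snd h13) (congrArg Dbl.snd h24) (congrArg Dbl.snd h12) (congrArg Dbl.snd h34)
  refine ⟨cmb u v, ?_, ?_⟩
  · apply Subtype.ext
    apply Prod.ext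
    · change p1 (cmb u v) = f1 s
      rw [p1_cmb, u1, v1]
    · change p3 (cmb u v) = f3 s
      rw [p3_cmb, u3, v3]
  · apply Subtype.ext
    apply Prod.ext
    · change p2 (cmb u v) = f2 t
      rw [p2_cmb, u2, v2]
    · change p4 (cmb u v) = f4 t
      rw [p4_cmb, u4, v4]

instance : Fintype (Dbl F2 false) :=
  Fintype.ofEquiv (F2 × F2) ⟨fun p => ⟨p.1, p.2⟩, fun x => (x.fst, x.snd), fun _ => rfl,
    fun _ => rfl⟩

/-- units of `ℤ[C_2]` -/
def l2 : List T1 := [1, ⟨0, 1⟩]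

theorem l2_spec : ∀ p ∈ l2, p * p = 1 := by decide

theorem l2_lift : ∀ δ δ' : Dbl F2 false, δ * δ' = 1 → ∃ p ∈ l2, a12 p = δ := by decide +kernel

theorem TR5 : TR (ZG (QuaternionGroup 5)) := by
  refine TR_glue pP pM qP qM ?_ inj_PM surj_PM TR_RP TR_RM ?_
  · intro z
    apply Prod.ext
    · exact p_12 z
    · exact p_34 z
  · intro δ δ' h _
    obtain ⟨p, hp, hp1⟩ := l2_lift δ.1 δ'.1 (congrArg Prod.fst h)
    have hp2 := l2_spec p hp
    have hp3 : a13 p * a13 p = 1 := by rw [← map_mul, hp2, map_one]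
    obtain ⟨ε, ε', h1, h2, h3, h4⟩ := lift3 δ.2 δ'.2 (congrArg Prod.snd h) (a13 p) (a13 p) hp3
    have h5 : b13 ε' = a13 p := by
      calc b13 ε' = a13 p * a13 p * b13 ε' := by rw [hp3, one_mul]
        _ = a13 p * (b13 ε * b13 ε') := by rw [h4, mul_assoc]
        _ = a13 p := by rw [← map_mul, h1, map_one, mul_one]
    refine ⟨⟨(p, ε), h4.symm⟩, ⟨(p, ε'), h5.symm⟩, ?_, ?_, ?_⟩
    · apply Subtype.ext
      exact Prod.ext hp2 h1
    · apply Subtype.ext
      exact Prod.ext hp2 h2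
    · exact Prod.ext hp1 h3

/-- the D(2) property for the group `Q_20` -/
theorem main : AlgebraicD2Property (QuaternionGroup 5) := d2_of_TR 5 TR5

end Vale.Agent.P246.Q20
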